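import Mathlib
import Vale.Agent.P078.Type3.GraphDefs

/-! Sums over the terms of graph operators. -/

noncomputable section

open scoped ComplexOrder
open Classical

namespace Vale.Agent.P078.T3.Comp

universe u v w

/-- the sum of a function over a list -/
def lsum {α : Type*} (L : List α) (F : α → ℝ) : ℝ := (L.map F).sum

variable {α β : Type*}

lemma lsum_nil (F : α → ℝ) : lsum ([] : List α) F = 0 := rfl

lemma lsum_cons (a : α) (L : List α) (F : α → ℝ) : lsum (a :: L) F = F a + lsum L F := by
  simp [lsum]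

lemma lsum_append (L L' : List α) (F : α → ℝ) : lsum (L ++ L') F = lsum L F + lsum L' F := by
  simp [lsum]

lemma lsum_map (L : List α) (f : α → β) (F : β → ℝ) :
    lsum (L.map f) F = lsum L fun a => F (f a) := by
  simp [lsum, Function.comp_def]

lemma lsum_flatMap (L : List α) (f : α → List β) (F : β → ℝ) :
    lsum (L.flatMap f) F = lsum L fun a => lsum (f a) F := by
  induction L with
  | nil => rfl
  | cons a L ih => rw [List.flatMap_cons, lsum_append, lsum_cons, ih]

lemma lsum_congr {L : List α} {F F' : α → ℝ} (h : ∀ a ∈ L, F a = F' a) : lsum L F = lsum L F' :=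
  congrArg List.sum (List.map_congr_left h)

lemma lsum_le {L : List α} {F F' : α → ℝ} (h : ∀ a ∈ L, F a ≤ F' a) : lsum L F ≤ lsum L F' :=
  List.sum_le_sum h

lemma lsum_zero (L : List α) : lsum L (fun _ => (0 : ℝ)) = 0 := by
  induction L with
  | nil => rfl
  | cons a L ih => rw [lsum_cons, ih, add_zero]

lemma lsum_eq_zero {L : List α} {F : α → ℝ} (h : ∀ a ∈ L, F a = 0) : lsum L F = 0 :=
  (lsum_congr h).trans (lsum_zero L)

lemma lsum_nonneg {L : List α} {F : α → ℝ} (h : ∀ a ∈ L, 0 ≤ F a) : 0 ≤ lsum L F :=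
  (lsum_zero L).ge.trans (lsum_le h)

lemma lsum_add (L : List α) (F F' : α → ℝ) :
    lsum L (fun a => F a + F' a) = lsum L F + lsum L F' := by
  induction L with
  | nil => simp [lsum_nil]
  | cons a L ih => simp only [lsum_cons, ih]; ring

lemma lsum_mul (L : List α) (c : ℝ) (F : α → ℝ) : lsum L (fun a => c * F a) = c * lsum L F := by
  induction L with
  | nil => simp [lsum_nil]
  | cons a L ih => simp only [lsum_cons, ih]; ring

lemma lsum_neg (L : List α) (F : α → ℝ) : lsum L (fun a => - F a) = - lsum L F := by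
  induction L with
  | nil => simp [lsum_nil]
  | cons a L ih => simp only [lsum_cons, ih]; ring

lemma lsum_finset {ι : Type*} (L : List α) (s : Finset ι) (F : α → ι → ℝ) :
    lsum L (fun a => ∑ i ∈ s, F a i) = ∑ i ∈ s, lsum L (fun a => F a i) := by
  induction L with
  | nil => simp [lsum_nil]
  | cons a L ih => simp only [lsum_cons, ih, Finset.sum_add_distrib]

lemma lsum_filterMap {L : List α} {P : α → Prop} [DecidablePred P] (f : α → β) (F : β → ℝ) :
    lsum (L.filterMap fun a => if P a then some (f a) else none) F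
      = lsum L fun a => if P a then F (f a) else 0 := by
  induction L with
  | nil => rfl
  | cons a L ih =>
    rw [lsum_cons, List.filterMap_cons]
    by_cases h : P a <;> simp [h, lsum_cons, ih]

variable {M : Type u} [CStarAlgebra M] [PartialOrder M] [StarOrderedRing M]
  {Ω : Type v} [TopologicalSpace Ω] [CompactSpace Ω] [T2Space Ω] {T : SMasa M Ω}
  {ι κ lab : Type w}

/-- the composite of two terms -/
def comp (s : Term T ι κ) (t : Term T κ lab) : Term T ι lab :=
  ⟨s.row, t.col, s.coef * t.coef.comp s.g.toDom, s.g.mul t.g⟩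

lemma lsum_gmul (S : GOp T ι κ) (R : GOp T κ lab) (F : Term T ι lab → ℝ) :
    lsum (S.mul R) F = lsum S fun s => lsum R fun t => if s.col = t.row then F (comp s t) else 0 := by
  rw [GOp.mul, lsum_flatMap]
  exact lsum_congr fun s _ => lsum_filterMap _ _

lemma lsum_gmul_unit {u : Type} [Subsingleton u] (S : GOp T u u) (R : GOp T u u)
    (F : Term T u u → ℝ) :
    lsum (S.mul R) F = lsum S fun s => lsum R fun t => F (comp s t) := by
  rw [lsum_gmul]
  exact lsum_congr fun s _ => lsum_congr fun t _ => if_pos (Subsingleton.elim _ _)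

/-- the entry of a term -/
def ent (t : Term T ι κ) (x : Ω × ι) (y : Ω × κ) : ℝ :=
  if t.row = x.2 ∧ t.col = y.2 ∧ t.g.toDom x.1 = y.1 then t.coef x.1 * t.g.ran x.1 else 0

lemma ker_eq (S : GOp T ι κ) (x : Ω × ι) (y : Ω × κ) : S.ker x y = lsum S fun t => ent t x y := rfl

lemma ker_gadd (S R : GOp T ι κ) (x : Ω × ι) (y : Ω × κ) :
    (S.add R).ker x y = S.ker x y + R.ker x y := by
  simp only [ker_eq, GOp.add, lsum_append]

/-- the diagonal of `(S Λ)`, weighted, times the transpose of `S` -/
lemma wdiag_eq [Fintype κ] (S : GOp T ι κ) (Λ : C(Ω, ℝ)) (b : Ω) (i : ι) :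
    ((S.mul (GOp.diag fun _ => Λ)).wgt.mul S.tp).ker (b, i) (b, i) =
      lsum S fun s => lsum S fun t =>
        if s.row = i ∧ t.row = i ∧ s.col = t.col ∧ s.g.ran b = 1 ∧ t.g.ran b = 1
          ∧ s.g.toDom b = t.g.toDom b
        then s.coef b * t.coef b * (Λ (s.g.toDom b) * s.g.dens b) else 0 := by
  rw [ker_eq, lsum_gmul, GOp.wgt, lsum_map, lsum_gmul]
  refine lsum_congr fun s _ => ?_
  simp only [GOp.diag, lsum_map]
  rw [show ∀ (F : κ → ℝ), lsum (Finset.univ : Finset κ).toList F = ∑ k, F k from fun F =>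
    Finset.sum_map_toList _ F]
  rw [Finset.sum_eq_single s.col (fun k _ hk => by rw [if_neg (Ne.symm hk)]) (by simp), if_pos rfl]
  simp only [GOp.tp, lsum_map, comp, ent, GElt.mul, GElt.inv, GElt.one, ContinuousMap.mul_apply,
    ContinuousMap.comp_apply, ContinuousMap.id_apply, ContinuousMap.one_apply, mul_one]
  refine lsum_congr fun t _ => ?_
  rcases idem_zero_or_one s.g.ran_idem b with hs | hs
  · simp [hs]
  by_cases hc : s.row = i ∧ t.row = i ∧ s.col = t.col
  · obtain ⟨h1, h2, h3⟩ := hc
    simp only [h1, h2, h3, hs, true_and, if_true, one_mul]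
    rcases idem_zero_or_one t.g.dom_idem (s.g.toDom b) with ht | ht
    · rw [if_neg (c := t.g.ran b = 1 ∧ _), ht]
      · simp
      · rintro ⟨r, e⟩
        have := t.g.dom_toDom b r
        rw [← e, ht] at this
        exact zero_ne_one this
    · rw [ht, mul_one]
      by_cases he : t.g.toRan (s.g.toDom b) = b
      · have r : t.g.ran b = 1 := by rw [← he]; exact t.g.ran_toRan _ ht
        have e : s.g.toDom b = t.g.toDom b := by
          conv_rhs => rw [← he]
          exact (t.g.toDom_toRan _ ht).symm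
        rw [if_pos he, if_pos ⟨r, e⟩, he]
        ring
      · rw [if_neg he, if_neg]
        rintro ⟨r, e⟩
        exact he (by rw [e]; exact t.g.toRan_toDom b r)
  · split_ifs <;> simp_all

end Vale.Agent.P078.T3.Comp
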